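import Vale.Agent.Borsuk.Points

namespace Vale.Agent.Results.P052.Dim63

open Vale.Agent.Borsuk

/-- Borsuk's conjecture fails in dimension 63: some bounded set of positive diameter in
63-dimensional Euclidean space (in fact a set of 321 points) is not covered by 64 sets of smaller
diameter. -/
theorem result :
    ∃ Y : Set (EuclideanSpace ℝ (Fin 63)),
      Y.ncard = 321 ∧ Bornology.IsBounded Y ∧ 0 < Metric.diam Y ∧
      ∀ P : Fin (63 + 1) → Set (EuclideanSpace ℝ (Fin 63)),
        (∀ i, Bornology.IsBounded (P i) ∧ Metric.diam (P i) < Metric.diam Y) →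
          ¬ Y ⊆ ⋃ i, P i := by
  refine ⟨Set.range X, ?_, (Set.finite_range X).isBounded, ?_, not_covered⟩
  · rw [← Set.image_univ, Set.ncard_image_of_injective _ X_injective, Set.ncard_univ,
      Nat.card_eq_fintype_card]
    simp [Lab, Fintype.card_option, Fintype.card_prod]
  · rw [diam_range]
    exact Real.sqrt_pos.2 (by norm_num)

end Vale.Agent.Results.P052.Dim63
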